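import Vale.Agent.Lib.P302L.Main

/-!
# P302: `LP ≤ OPT`, and instances with small `LP`
-/

namespace Vale.Agent.P302L

theorem LP_le {ι : Type} [Fintype ι] (a : ι → ℚ) (ha : Instance a) {k : ℕ} (h : Packs a k) :
    LP a ≤ k := by
  classical
  obtain ⟨p, hp⟩ := h
  refine csInf_le (feas_bdd a ha) ⟨Fin k, inferInstance,
    fun b => (Finset.univ.filter fun i => p i = b).val.map a, fun _ => 1, ?_, ?_, ?_, by simp⟩
  · intro b
    refine ⟨?_, ?_⟩
    · intro s hs
      obtain ⟨i, -, rfl⟩ := Multiset.mem_map.1 hs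
      exact (ha i).1
    · have h1 : ((Finset.univ.filter fun i => p i = b).val.map a).sum =
          ∑ i ∈ Finset.univ.filter (fun i => p i = b), a i := rfl
      rw [h1, Finset.sum_filter]
      exact hp b
  · intro b
    norm_num
  · intro s
    have h1 : ({i | a i = s} : Set ι).ncard =
        ∑ b : Fin k, ((Finset.univ.filter fun i => p i = b).val.map a).count s := by
      have h2 : ({i | a i = s} : Set ι).ncard = (Finset.univ.filter fun i => a i = s).card := by
        rw [← Set.ncard_coe_finset]
        congr 1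
        ext i
        simp
      rw [h2, Finset.card_eq_sum_card_fiberwise (f := p) (t := Finset.univ)
        (fun i _ => Finset.mem_coe.2 (Finset.mem_univ _))]
      refine Finset.sum_congr rfl fun b _ => ?_
      rw [Multiset.count_map]
      have h3 : Multiset.card (Multiset.filter (fun i => s = a i)
          (Finset.univ.filter fun i => p i = b).val) =
          ((Finset.univ.filter fun i => p i = b).filter fun i => s = a i).card := rfl
      rw [h3]
      congr 1
      ext i
      simp only [Finset.mem_filter, Finset.mem_univ, true_and]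
      tauto
    rw [h1]
    push_cast
    simp

theorem third_eq {ι : Type} [Fintype ι] (a : ι → ℚ) (ha : Instance a) (h3 : ∀ i, 1 / 3 < a i) :
    OPT a = ⌈LP a⌉₊ := by
  refine le_antisymm (third a ha h3) ?_
  exact Nat.ceil_le.2 (LP_le a ha ((OPT_le_iff a ha _).1 le_rfl))

theorem small_LP (c : ℕ) (hc : 1 ≤ c) {ι : Type} [Fintype ι] (a : ι → ℚ) (ha : Instance a)
    (h : LP a ≤ 2 * c + 1) : OPT a ≤ ⌈LP a⌉₊ + c := by
  refine mixed_ind c hc _ ι a ha rfl fun i => ?_
  by_cases h1 : 1 / 3 < a i
  · exact Or.inl h1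
  · right
    have h0 : (0 : ℝ) ≤ a i := by exact_mod_cast (ha i).1.le
    have h2 : (a i : ℝ) ≤ 1 / 3 := by
      have h3 : a i ≤ 1 / 3 := not_lt.1 h1
      have h4 : ((a i : ℚ) : ℝ) ≤ ((1 / 3 : ℚ) : ℝ) := by exact_mod_cast h3
      push_cast at h4
      exact h4
    have hc' : (1 : ℝ) ≤ c := by exact_mod_cast hc
    have h5 : (a i : ℝ) * (LP a + c - 1) ≤ (a i : ℝ) * (3 * c) :=
      mul_le_mul_of_nonneg_left (by linarith) h0
    nlinarith

end Vale.Agent.P302L
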