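import Vale.Agent.Lib.P302L.Third

/-!
# P302: instances whose items are larger than `1/3` or small
-/

namespace Vale.Agent.P302L

theorem w_half {t x : ℚ} (h : t ≤ x) : 1 / 2 ≤ w t x := by
  unfold w
  rw [if_pos h]
  split_ifs <;> norm_num

theorem w_one {t x : ℚ} (h : 1 - t < x) : w t x = 1 := by
  unfold w
  rw [if_pos h]

theorem PS_one {ι : Type} (a : ι → ℚ) (S : Finset ι) (h : ∑ i ∈ S, a i ≤ 1) : PS a S 1 := by
  refine ⟨fun _ => 0, fun b => ?_⟩
  have h4 : b = 0 := Subsingleton.elim _ _
  subst h4
  simpa using h

theorem PS_main {ι : Type} [DecidableEq ι] (a : ι → ℚ) (n : ℕ) : ∀ S : Finset ι, S.card = n →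
    (∀ i ∈ S, 1 / 3 < a i ∧ a i ≤ 1) → S.Nonempty → ∃ (k : ℕ) (t : ℚ), 1 / 3 < t ∧ t ≤ 1 / 2 ∧
      PS a S k ∧ (k : ℚ) ≤ ∑ i ∈ S, w t (a i) + 1 / 2 := by
  induction n using Nat.strong_induction_on with
  | _ n ih =>
    intro S hn hS hne
    obtain ⟨x, hx, hmax⟩ := Finset.exists_max_image S a hne
    by_cases hx2 : a x ≤ 1 / 2
    · obtain ⟨k, hk, hk2⟩ := PS_small a _ S rfl (fun i hi =>
        ⟨by linarith [(hS i hi).1], (hmax i hi).trans hx2⟩) hne
      obtain ⟨m, hm, hmin⟩ := Finset.exists_min_image S a hne
      refine ⟨k, a m, (hS m hm).1, (hmax m hm).trans hx2, hk, ?_⟩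
      have h1 : ∑ _i ∈ S, (1 / 2 : ℚ) ≤ ∑ i ∈ S, w (a m) (a i) :=
        Finset.sum_le_sum fun i hi => w_half (hmin i hi)
      rw [Finset.sum_const, nsmul_eq_mul] at h1
      have h2 : (2 : ℚ) * k ≤ S.card + 1 := by exact_mod_cast hk2
      linarith
    · push Not at hx2
      have hfin : ∀ T R : Finset ι, x ∈ T → Disjoint R T → R ∪ T = S → ∑ i ∈ T, a i ≤ 1 →
          (∀ t : ℚ, 1 / 3 < t → t ≤ 1 / 2 → a x ≤ 1 - t →
            1 ≤ ∑ i ∈ T, w t (a i) ∨ ∀ i ∈ R, t ≤ a i → 1 - a x < a i) →
          ∃ (k : ℕ) (t : ℚ), 1 / 3 < t ∧ t ≤ 1 / 2 ∧ PS a S k ∧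
            (k : ℚ) ≤ ∑ i ∈ S, w t (a i) + 1 / 2 := by
        intro T R hxT hd hU hT hgap
        have hcard : R.card < S.card := by
          rw [← hU, Finset.card_union_of_disjoint hd]
          have : 0 < T.card := Finset.card_pos.2 ⟨x, hxT⟩
          omega
        have hsplit : ∀ t, ∑ i ∈ S, w t (a i) = ∑ i ∈ R, w t (a i) + ∑ i ∈ T, w t (a i) := by
          intro t
          rw [← hU, Finset.sum_union hd]
        have hTx : ∀ t, w t (a x) ≤ ∑ i ∈ T, w t (a i) := fun t =>
          Finset.single_le_sum (f := fun i => w t (a i)) (fun i _ => w_nonneg _ _) hxT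
        rcases R.eq_empty_or_nonempty with hR | hR
        · refine ⟨1, 1 / 2, by norm_num, le_rfl, ?_, ?_⟩
          · rw [← hU, hR, Finset.empty_union]
            exact PS_one a T hT
          · have h1 := hTx (1 / 2)
            rw [w_one (by linarith)] at h1
            rw [hsplit, hR, Finset.sum_empty]
            push_cast
            linarith
        · obtain ⟨k, t', ht1, ht2, hk, hk2⟩ := ih R.card (by omega) R rfl
            (fun i hi => hS i (by rw [← hU]; exact Finset.mem_union_left _ hi)) hR
          have hPS : PS a S (k + 1) := by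
            have := PS_add a R T hd hT hk
            rwa [hU] at this
          by_cases h1 : 1 - t' < a x
          · refine ⟨k + 1, t', ht1, ht2, hPS, ?_⟩
            have h2 := hTx t'
            rw [w_one h1] at h2
            rw [hsplit]
            push_cast
            linarith
          · push Not at h1
            rcases hgap t' ht1 ht2 h1 with h2 | h2
            · refine ⟨k + 1, t', ht1, ht2, hPS, ?_⟩
              rw [hsplit]
              push_cast
              linarith
            · obtain ⟨m, hm, hmin⟩ := Finset.exists_min_image (S.filter fun i => 1 - a x < a i) a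
                ⟨x, Finset.mem_filter.2 ⟨hx, by linarith⟩⟩
              have hm1 := (Finset.mem_filter.1 hm).2
              have ht : 1 - a x < min (a m) (1 / 2) := lt_min hm1 (by linarith)
              refine ⟨k + 1, min (a m) (1 / 2), by linarith, min_le_right _ _, hPS, ?_⟩
              have h3 := hTx (min (a m) (1 / 2))
              rw [w_one (by linarith)] at h3
              have h4 : ∑ i ∈ R, w t' (a i) ≤ ∑ i ∈ R, w (min (a m) (1 / 2)) (a i) := by
                refine Finset.sum_le_sum fun i hi => ?_
                by_cases h5 : t' ≤ a i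
                · have h6 := h2 i hi h5
                  have h7 : min (a m) (1 / 2) ≤ a i := (min_le_left _ _).trans
                    (hmin i (Finset.mem_filter.2 ⟨by rw [← hU]; exact Finset.mem_union_left _ hi,
                      h6⟩))
                  by_cases h8 : 1 - t' < a i
                  · rw [w_one h8, w_one (by linarith)]
                  · have h9 : w t' (a i) = 1 / 2 := by
                      unfold w
                      rw [if_neg h8, if_pos h5]
                    rw [h9]
                    exact w_half h7
                · have h9 : w t' (a i) = 0 := by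
                    unfold w
                    rw [if_neg (by linarith), if_neg h5]
                  rw [h9]
                  exact w_nonneg _ _
              rw [hsplit]
              push_cast
              linarith
      by_cases hY : ((S.erase x).filter fun i => a i ≤ 1 - a x).Nonempty
      · obtain ⟨y, hy, hymax⟩ := Finset.exists_max_image _ a hY
        obtain ⟨hyS', hy1⟩ := Finset.mem_filter.1 hy
        have hyS : y ∈ S := Finset.mem_of_mem_erase hyS'
        have hxy : y ≠ x := Finset.ne_of_mem_erase hyS'
        refine hfin {x, y} ((S.erase x).erase y) (Finset.mem_insert_self _ _) ?_ ?_ ?_ ?_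
        · rw [Finset.disjoint_left]
          intro i hi hi2
          simp only [Finset.mem_erase, Finset.mem_insert, Finset.mem_singleton] at hi hi2
          rcases hi2 with h | h
          · exact hi.2.1 h
          · exact hi.1 h
        · ext i
          simp only [Finset.mem_union, Finset.mem_erase, Finset.mem_insert, Finset.mem_singleton]
          constructor
          · rintro (⟨-, -, h⟩ | h | h)
            · exact h
            · rw [h]; exact hx
            · rw [h]; exact hyS
          · intro h
            by_cases h2 : i = x
            · right; left; exact h2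
            · by_cases h3 : i = y
              · right; right; exact h3
              · left; exact ⟨h3, h2, h⟩
        · rw [Finset.sum_pair hxy.symm]
          linarith
        · intro t ht1 ht2 hxt
          by_cases hyt : t ≤ a y
          · left
            rw [Finset.sum_pair hxy.symm]
            have h1 := w_half (t := t) (x := a x) (by linarith)
            have h2 := w_half hyt
            linarith
          · right
            intro i hi hti
            by_contra hcon
            push Not at hcon
            have h3 := hymax i (Finset.mem_filter.2 ⟨Finset.mem_of_mem_erase hi, hcon⟩)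
            exact hyt (hti.trans h3)
      · refine hfin {x} (S.erase x) (Finset.mem_singleton_self _) ?_ ?_ ?_ ?_
        · rw [Finset.disjoint_left]
          intro i hi hi2
          exact (Finset.ne_of_mem_erase hi) (Finset.mem_singleton.1 hi2)
        · ext i
          simp only [Finset.mem_union, Finset.mem_erase, Finset.mem_singleton]
          constructor
          · rintro (⟨-, h⟩ | h)
            · exact h
            · rw [h]; exact hx
          · intro h
            by_cases h2 : i = x
            · right; exact h2
            · left; exact ⟨h2, h⟩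
        · rw [Finset.sum_singleton]
          exact (hS x hx).2
        · intro t ht1 ht2 hxt
          right
          intro i hi hti
          by_contra hcon
          push Not at hcon
          exact hY ⟨i, Finset.mem_filter.2 ⟨hi, hcon⟩⟩

/-- all items larger than `1/3`: integer round-up property -/
theorem third {ι : Type} [Fintype ι] (a : ι → ℚ) (ha : Instance a) (h3 : ∀ i, 1 / 3 < a i) :
    OPT a ≤ ⌈LP a⌉₊ := by
  classical
  rcases isEmpty_or_nonempty ι with he | he
  · have : Packs a 0 := ⟨fun i => (he.false i).elim, fun b => b.elim0⟩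
    exact (Nat.sInf_le this).trans (Nat.zero_le _)
  · obtain ⟨k, t, ht1, ht2, hk, hk2⟩ := PS_main a _ (Finset.univ : Finset ι) rfl
      (fun i _ => ⟨h3 i, (ha i).2⟩) Finset.univ_nonempty
    have h1 : OPT a ≤ k := Nat.sInf_le hk
    refine h1.trans ?_
    have h2 := w_le_LP a ha ht1 ht2
    have h4 : (k : ℝ) ≤ ((∑ i, w t (a i) : ℚ) : ℝ) + 1 / 2 := by
      have : ((k : ℚ) : ℝ) ≤ ((∑ i, w t (a i) + 1 / 2 : ℚ) : ℝ) := by exact_mod_cast hk2
      push_cast at this ⊢
      linarith
    have h5 := Nat.le_ceil (LP a)
    have h6 : (k : ℝ) < (⌈LP a⌉₊ + 1 : ℕ) := by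
      push_cast
      linarith
    have h7 : k < ⌈LP a⌉₊ + 1 := by exact_mod_cast h6
    omega

theorem mixed_ind (c : ℕ) (hc : 1 ≤ c) (n : ℕ) :
    ∀ (ι : Type) [Fintype ι] (a : ι → ℚ), Instance a → Fintype.card ι = n →
      (∀ i, 1 / 3 < a i ∨ (a i : ℝ) * (LP a + c - 1) ≤ c) → OPT a ≤ ⌈LP a⌉₊ + c := by
  classical
  induction n with
  | zero =>
    intro ι _ a ha hn _
    have he : IsEmpty ι := Fintype.card_eq_zero_iff.1 hn
    exact (third a ha fun i => (he.false i).elim).trans (Nat.le_add_right _ _)
  | succ n ih =>
    intro ι _ a ha hn h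
    by_cases h1 : ∀ i, 1 / 3 < a i
    · exact (third a ha h1).trans (Nat.le_add_right _ _)
    · push Not at h1
      obtain ⟨i₀, hi⟩ := h1
      have hi' : (a i₀ : ℝ) * (LP a + c - 1) ≤ c := by
        rcases h i₀ with h2 | h2
        · exact absurd h2 (not_lt.2 hi)
        · exact h2
      have hLP : LP (fun i : {i // i ≠ i₀} => a i) ≤ LP a :=
        LP_mono a ha (fun i : {i // i ≠ i₀} => (i : ι)) Subtype.val_injective
      apply step c hc a ha i₀ hi'
      apply ih
      · exact fun i => ha i
      · rw [Fintype.card_subtype_compl, hn]
        simp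
      · intro i
        rcases h i with h2 | h2
        · exact Or.inl h2
        · right
          have h3 : (0 : ℝ) ≤ a i := by exact_mod_cast (ha i).1.le
          nlinarith [mul_le_mul_of_nonneg_left hLP h3]

end Vale.Agent.P302L
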