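import Vale.Agent.Lib.P302L.Base

/-!
# P302: items larger than `1/3`

`w t x` is `1` for `x > 1 - t`, `1/2` for `t ≤ x ≤ 1 - t`, `0` for `x < t`; for `1/3 < t ≤ 1/2` it is feasible for the
dual of the configuration LP.
-/

namespace Vale.Agent.P302L

/-- dual weights -/
def w (t x : ℚ) : ℚ := if 1 - t < x then 1 else if t ≤ x then 1 / 2 else 0

theorem w_nonneg (t x : ℚ) : 0 ≤ w t x := by
  unfold w
  split_ifs <;> norm_num

/-- feasibility on lists -/
theorem w_config {t : ℚ} (ht : 1 / 3 < t) (ht2 : t ≤ 1 / 2) (C : Multiset ℚ)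
    (hC : ∀ s ∈ C, 0 < s) (hs : C.sum ≤ 1) : (C.map (w t)).sum ≤ 1 := by
  -- strengthen: `3 t k ≤ sum`-type bounds by induction are avoided: split by the number of items `≥ t`
  have key : ∀ (C : Multiset ℚ), (∀ s ∈ C, 0 < s) →
      ((C.map (w t)).sum ≤ 0) ∨ (t ≤ C.sum ∧ (C.map (w t)).sum ≤ 1 / 2) ∨
      (2 * t ≤ C.sum ∧ (C.map (w t)).sum ≤ 1) ∨ (1 - t < C.sum ∧ (C.map (w t)).sum ≤ 1) ∨ 1 < C.sum := by
    intro C
    induction C using Multiset.induction_on with
    | empty => intro _; left; simp
    | cons a C ih =>
      intro h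
      have ha : 0 < a := h a (Multiset.mem_cons_self a C)
      have h0 : 0 ≤ C.sum := Multiset.sum_nonneg fun s hs => (h s (Multiset.mem_cons_of_mem hs)).le
      rw [Multiset.sum_cons, Multiset.map_cons, Multiset.sum_cons]
      have hwa : (1 - t < a ∧ w t a = 1) ∨ (t ≤ a ∧ a ≤ 1 - t ∧ w t a = 1 / 2) ∨ (w t a = 0) := by
        unfold w
        by_cases h1 : 1 - t < a
        · left; exact ⟨h1, by rw [if_pos h1]⟩
        · by_cases h2 : t ≤ a
          · right; left; exact ⟨h2, not_lt.1 h1, by rw [if_neg h1, if_pos h2]⟩
          · right; right; rw [if_neg h1, if_neg h2]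
      have ih' := ih fun s hs => h s (Multiset.mem_cons_of_mem hs)
      rcases hwa with ⟨h1, h2⟩ | ⟨h1, h1', h2⟩ | h2 <;>
      rcases ih' with h3 | ⟨h3, h4⟩ | ⟨h3, h4⟩ | ⟨h3, h4⟩ | h3
      · right; right; right; left; constructor <;> linarith
      · right; right; right; right; linarith
      · right; right; right; right; linarith
      · right; right; right; right; linarith
      · right; right; right; right; linarith
      · right; left; constructor <;> linarith
      · right; right; left; constructor <;> linarith
      · right; right; right; right; linarith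
      · right; right; right; right; linarith
      · right; right; right; right; linarith
      · left; linarith
      · right; left; constructor <;> linarith
      · right; right; left; constructor <;> linarith
      · right; right; right; left; constructor <;> linarith
      · right; right; right; right; linarith
  rcases key C hC with h | ⟨h1, h2⟩ | ⟨h1, h2⟩ | ⟨h1, h2⟩ | h <;> linarith

/-- weak duality -/
theorem w_le_LP {ι : Type} [Fintype ι] (a : ι → ℚ) (ha : Instance a) {t : ℚ} (ht : 1 / 3 < t)
    (ht2 : t ≤ 1 / 2) : ((∑ i, w t (a i) : ℚ) : ℝ) ≤ LP a := by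
  classical
  refine le_csInf (feas_nonempty a ha) ?_
  rintro x ⟨J, _, C, z, hC, hz, hcov, rfl⟩
  have h1 : ((∑ i, w t (a i) : ℚ) : ℝ) =
      ∑ s ∈ Finset.univ.image a, (w t s : ℝ) * (({i | a i = s} : Set ι).ncard : ℝ) := by
    push_cast
    rw [← Finset.sum_fiberwise_of_maps_to (s := Finset.univ) (t := Finset.univ.image a) (g := a)
      (fun i _ => Finset.mem_image_of_mem a (Finset.mem_univ i))]
    refine Finset.sum_congr rfl fun s _ => ?_
    have h2 : ∑ i ∈ Finset.univ.filter (fun i => a i = s), (w t (a i) : ℝ) =
        ∑ i ∈ Finset.univ.filter (fun i => a i = s), (w t s : ℝ) :=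
      Finset.sum_congr rfl fun i hi => by rw [(Finset.mem_filter.1 hi).2]
    rw [h2, Finset.sum_const, nsmul_eq_mul, mul_comm]
    congr 2
    rw [← Set.ncard_coe_finset]
    congr 1
    ext i
    simp
  rw [h1]
  calc ∑ s ∈ Finset.univ.image a, (w t s : ℝ) * (({i | a i = s} : Set ι).ncard : ℝ)
      ≤ ∑ s ∈ Finset.univ.image a, (w t s : ℝ) * ∑ j, ((C j).count s : ℝ) * z j :=
        Finset.sum_le_sum fun s hs => mul_le_mul_of_nonneg_left (hcov s)
          (by exact_mod_cast w_nonneg t s)
    _ = ∑ j, z j * ∑ s ∈ Finset.univ.image a, (w t s : ℝ) * ((C j).count s : ℝ) := by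
        simp only [Finset.mul_sum]
        rw [Finset.sum_comm]
        refine Finset.sum_congr rfl fun j _ => Finset.sum_congr rfl fun s _ => by ring
    _ ≤ ∑ j, z j * 1 := by
        refine Finset.sum_le_sum fun j _ => mul_le_mul_of_nonneg_left ?_ (hz j)
        have h3 : (((C j).map (w t)).sum : ℚ) = ∑ s ∈ (C j).toFinset, (C j).count s • w t s :=
          Finset.sum_multiset_map_count (C j) (w t)
        have h4 : ∑ s ∈ Finset.univ.image a, w t s * ((C j).count s : ℚ) ≤
            ((C j).map (w t)).sum := by
          rw [h3]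
          have h5 : ∑ s ∈ Finset.univ.image a, w t s * ((C j).count s : ℚ) =
              ∑ s ∈ (Finset.univ.image a).filter (fun s => s ∈ C j),
                w t s * ((C j).count s : ℚ) := by
            symm
            apply Finset.sum_subset (Finset.filter_subset _ _)
            intro s hs hs'
            have : s ∉ C j := fun h => hs' (Finset.mem_filter.2 ⟨hs, h⟩)
            rw [Multiset.count_eq_zero_of_notMem this]
            simp
          rw [h5]
          refine le_trans (le_of_eq (Finset.sum_congr rfl fun s _ => ?_))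
            (Finset.sum_le_sum_of_subset_of_nonneg (t := (C j).toFinset)
              (fun s hs => Multiset.mem_toFinset.2 (Finset.mem_filter.1 hs).2)
              (fun s hs _ => nsmul_nonneg (w_nonneg t s) _))
          rw [nsmul_eq_mul, mul_comm]
        have h6 := h4.trans (w_config ht ht2 (C j) (hC j).1 (hC j).2)
        exact_mod_cast h6
    _ = ∑ j, z j := by simp

/-- the items in `S` fit into `k` bins -/
def PS {ι : Type} (a : ι → ℚ) (S : Finset ι) (k : ℕ) : Prop :=
  ∃ p : ι → Fin k, ∀ b : Fin k, ∑ i ∈ S, (if p i = b then a i else 0) ≤ 1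

theorem PS_add {ι : Type} [DecidableEq ι] (a : ι → ℚ) (S T : Finset ι) (hd : Disjoint S T)
    (hT : ∑ i ∈ T, a i ≤ 1) {k : ℕ} (h : PS a S k) : PS a (S ∪ T) (k + 1) := by
  obtain ⟨p, hp⟩ := h
  refine ⟨fun i => if i ∈ T then Fin.last k else (p i).castSucc, fun b => ?_⟩
  rw [Finset.sum_union hd]
  have h1 : ∀ i ∈ S, i ∉ T := fun i hi hT => (Finset.disjoint_left.1 hd) hi hT
  refine Fin.lastCases ?_ (fun c => ?_) b
  · have e1 : ∑ i ∈ S, (if (if i ∈ T then Fin.last k else (p i).castSucc) = Fin.last k then a i
        else 0) = 0 := Finset.sum_eq_zero fun i hi => by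
      rw [if_neg (h1 i hi), if_neg (Fin.castSucc_lt_last _).ne]
    have e2 : ∑ i ∈ T, (if (if i ∈ T then Fin.last k else (p i).castSucc) = Fin.last k then a i
        else 0) = ∑ i ∈ T, a i := Finset.sum_congr rfl fun i hi => by
      rw [if_pos hi, if_pos rfl]
    rw [e1, e2, zero_add]
    exact hT
  · have e1 : ∑ i ∈ S, (if (if i ∈ T then Fin.last k else (p i).castSucc) = c.castSucc then a i
        else 0) = ∑ i ∈ S, (if p i = c then a i else 0) := Finset.sum_congr rfl fun i hi => by
      rw [if_neg (h1 i hi)]
      simp only [Fin.castSucc_inj]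
    have e2 : ∑ i ∈ T, (if (if i ∈ T then Fin.last k else (p i).castSucc) = c.castSucc then a i
        else 0) = 0 := Finset.sum_eq_zero fun i hi => by
      rw [if_pos hi, if_neg (Fin.castSucc_lt_last _).ne']
    rw [e1, e2, add_zero]
    exact hp c

theorem PS_small {ι : Type} [DecidableEq ι] (a : ι → ℚ) (n : ℕ) : ∀ S : Finset ι, S.card = n →
    (∀ i ∈ S, 0 < a i ∧ a i ≤ 1 / 2) → S.Nonempty → ∃ k : ℕ, PS a S k ∧ 2 * k ≤ S.card + 1 := by
  induction n using Nat.strong_induction_on with
  | _ n ih =>
    intro S hn hS hne
    obtain ⟨x, hx⟩ := hne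
    by_cases h1 : (S.erase x).Nonempty
    · obtain ⟨y, hy⟩ := h1
      have hcx : (S.erase x).card = S.card - 1 := Finset.card_erase_of_mem hx
      have hcy : ((S.erase x).erase y).card = (S.erase x).card - 1 := Finset.card_erase_of_mem hy
      have hpos : 0 < (S.erase x).card := Finset.card_pos.2 ⟨y, hy⟩
      have hyS : y ∈ S := Finset.mem_of_mem_erase hy
      have hxy : y ≠ x := Finset.ne_of_mem_erase hy
      have hU : ((S.erase x).erase y) ∪ {x, y} = S := by
        ext i
        simp only [Finset.mem_union, Finset.mem_erase, Finset.mem_insert, Finset.mem_singleton]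
        constructor
        · rintro (⟨-, -, h⟩ | h | h)
          · exact h
          · rw [h]; exact hx
          · rw [h]; exact hyS
        · intro h
          by_cases h2 : i = x
          · right; left; exact h2
          · by_cases h3 : i = y
            · right; right; exact h3
            · left; exact ⟨h3, h2, h⟩
      have hD : Disjoint ((S.erase x).erase y) {x, y} := by
        rw [Finset.disjoint_left]
        intro i hi hi2
        simp only [Finset.mem_erase, Finset.mem_insert, Finset.mem_singleton] at hi hi2
        rcases hi2 with h | h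
        · exact hi.2.1 h
        · exact hi.1 h
      have hsum : ∑ i ∈ ({x, y} : Finset ι), a i ≤ 1 := by
        rw [Finset.sum_pair hxy.symm]
        linarith [(hS x hx).2, (hS y hyS).2]
      by_cases h2 : ((S.erase x).erase y).Nonempty
      · obtain ⟨k, hk, hk2⟩ := ih ((S.erase x).erase y).card (by omega) _ rfl
          (fun i hi => hS i (Finset.mem_of_mem_erase (Finset.mem_of_mem_erase hi))) h2
        refine ⟨k + 1, ?_, by omega⟩
        have h3 := PS_add a _ _ hD hsum hk
        rwa [hU] at h3
      · rw [Finset.not_nonempty_iff_eq_empty] at h2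
        rw [h2] at hU hcy
        rw [Finset.card_empty] at hcy
        rw [Finset.empty_union] at hU
        refine ⟨1, ⟨fun _ => 0, fun b => ?_⟩, by omega⟩
        rw [← hU]
        have h4 : b = 0 := Subsingleton.elim _ _
        subst h4
        simpa using hsum
    · rw [Finset.not_nonempty_iff_eq_empty] at h1
      have hS1 : S = {x} := by
        rw [← Finset.insert_erase hx, h1]
        rfl
      refine ⟨1, ⟨fun _ => 0, fun b => ?_⟩, by rw [hS1]; simp⟩
      have h4 : b = 0 := Subsingleton.elim _ _
      subst h4
      rw [hS1]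
      simp only [if_true, Finset.sum_singleton]
      linarith [(hS x hx).2]

end Vale.Agent.P302L
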